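import Vale.Agent.P022F.St
import Vale.Agent.P022F.Top.Nf
import Vale.Agent.P022F.Top.Th
import Vale.Agent.P022F.A.EndMain

/-!
P022F: the statement for residually reducible representations from the theorem in fixed weight.
-/

set_option linter.all false

open Matrix IsLocalRing

noncomputable section

namespace Vale.Agent.P022F.AF

open Vale.Agent.P022 Vale.Agent.P022D.Dk Vale.Agent.P022D.End
open Vale.Agent.P022D.Top (Ob mem_Ob norm_Ob max_Ob res_Ob)
open Vale.Agent.P022F.Top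

theorem ub_of {E k : Type} [NontriviallyNormedField E] [Field k] {r : GQ →* GL (Fin 2) E}
    {χ₁ χ₂ : GQ →* kˣ} {S : Finset ℕ} (hS : ∀ l ∈ S, ¬ St.UnrAt r l)
    (h : St.Unob r (χ₁ * χ₂⁻¹)) : Ub S (fun g => (χ₁ g : k)) fun g => (χ₂ g : k) := by
  intro b h1 ⟨U, hU, h2⟩ h3 h4
  have hb : ∀ g g', b (g * g') / (χ₂ (g * g') : k) =
      b g / (χ₂ g : k) + (((χ₁ * χ₂⁻¹) g : kˣ) : k) * (b g' / (χ₂ g' : k)) := fun g g' => by
    have := (χ₂ g).ne_zero
    have := (χ₂ g').ne_zero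
    rw [h1, map_mul, MonoidHom.mul_apply, MonoidHom.inv_apply, Units.val_mul, Units.val_mul,
      Units.val_inv_eq_inv_val]
    field_simp
    ring
  obtain ⟨c, hc⟩ := H443.exists_isConj
  obtain ⟨m, hm⟩ := h (fun g => b g / (χ₂ g : k))
    ((IsLocallyConstant.iff_eventually_eq _).2 fun g => by
      have h5 : (fun x => g⁻¹ * x) ⁻¹' (U : Set GQ) ∈ nhds g :=
        (hU.preimage (continuous_const.mul continuous_id)).mem_nhds (by simp)
      filter_upwards [h5] with x hx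
      have h6 := hb g (g⁻¹ * x)
      rwa [mul_inv_cancel_left, h2 _ hx, zero_div, mul_zero, add_zero] at h6) hb
    (fun l a1 a2 a3 P hP hl g hg => by
      rw [h3 l a1 a2 (fun e => hS l e a3) g ⟨P, hP, hl, hg⟩, zero_div])
    ⟨c, hc, by rw [h4 c hc, zero_div]⟩
  refine ⟨m, fun g => ?_⟩
  have h0 := (χ₂ g).ne_zero
  have h5 := (div_eq_iff h0).1 (hm g)
  rw [h5, MonoidHom.mul_apply, MonoidHom.inv_apply, Units.val_mul, Units.val_inv_eq_inv_val]
  field_simp

/-- from the normal form -/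
theorem red_of {E k : Type} [NontriviallyNormedField E] [NormedAlgebra ℚ_[2] E]
    [IsUltrametricDist E] [Field k] [CharP k 2] {s : GQ →* GL (Fin 2) E}
    {ι : Ob E →+* AlgebraicClosure k} {χ₁ χ₂ : GQ →* kˣ} {g₀ : GQ} {S : Finset ℕ}
    (h : Nf.NF s ι (fun g => algebraMap k _ (χ₁ g : k)) (fun g => algebraMap k _ (χ₂ g : k)) g₀)
    (hne : χ₁ g₀ ≠ χ₂ g₀) (hd : ∀ l ∈ S, ∃ g, St.IsDec l g ∧ χ₁ g ≠ χ₂ g)
    (h1 : Ub S (fun g => (χ₁ g : k)) fun g => (χ₂ g : k))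
    (h2 : Ub S (fun g => (χ₂ g : k)) fun g => (χ₁ g : k)) : Red S s := by
  let x : GQ → Ob E := fun g => ⟨_, mem_Ob.2 (h.int g 0 0)⟩
  let y : GQ → Ob E := fun g => ⟨_, mem_Ob.2 (h.int g 1 1)⟩
  have hx : ∀ g, ι (x g) = algebraMap k _ (χ₁ g : k) := fun g => h.c0 g _ rfl
  have hy : ∀ g, ι (y g) = algebraMap k _ (χ₂ g : k) := fun g => h.c1 g _ rfl
  have inj := (algebraMap k (AlgebraicClosure k)).injective
  have hne' : (χ₁ g₀ : k) ≠ χ₂ g₀ := fun e => hne (Units.ext e)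
  refine ⟨h.int, h.lo, h.up.imp fun g e => by rw [e, norm_one], ⟨g₀, h.dg.1, h.dg.2, ?_⟩,
    fun l hl hu => ?_, ?_⟩
  · refine le_antisymm (norm_Ob (x g₀ - y g₀)) (not_lt.1 fun e => hne' (inj ?_))
    have h3 := (Nf.zero_iff ι (x g₀ - y g₀)).2 e
    rwa [map_sub, hx, hy, sub_eq_zero] at h3
  · obtain ⟨g, ⟨P, hP, hp, hg⟩, h3⟩ := hd l hl
    have h4 := hu P hP hp g hg
    rw [Matrix.trace_fin_two] at h4
    have h5 := (Nf.zero_iff ι (x g + y g)).2 h4
    rw [map_add, hx, hy, ← map_add, map_eq_zero, CharTwo.add_eq_zero] at h5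
    exact h3 (Units.ext h5)
  · intro k' _ π hπ x' y' hx' hy'
    rw [show x' = x from funext fun g => Subtype.ext (hx' g),
      show y' = y from funext fun g => Subtype.ext (hy' g)]
    haveI : IsLocalHom ι := ⟨fun a ha => by
      by_contra hn
      exact ha.ne_zero ((Nf.zero_iff ι a).2 (max_Ob.1 hn))⟩
    haveI : IsLocalHom π := ⟨fun a ha => by
      by_contra hn
      exact ha.ne_zero (hπ a (max_Ob.1 hn))⟩
    have n0 : residue (Ob E) (x g₀) ≠ residue (Ob E) (y g₀) := fun e => hne' (inj (by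
      rw [← hx, ← hy]
      exact congrArg (ResidueField.lift ι) e))
    have a1 := h1.up (algebraMap k (AlgebraicClosure k)) hne'
    have a2 := h2.up (algebraMap k (AlgebraicClosure k)) hne'.symm
    simp only [← hx, ← hy] at a1 a2
    have b1 := Ub.up (x := fun g => residue (Ob E) (x g)) (y := fun g => residue (Ob E) (y g))
      (ResidueField.lift π) n0 (Ub.down (ResidueField.lift ι) n0 a1)
    have b2 := Ub.up (x := fun g => residue (Ob E) (y g)) (y := fun g => residue (Ob E) (x g))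
      (ResidueField.lift π) n0.symm (Ub.down (ResidueField.lift ι) n0.symm a2)
    exact ⟨b1, b2⟩

/-- **the residually reducible unobstructed case** -/
theorem finA (hC : CORE) (E : Type) [NontriviallyNormedField E] [NormedAlgebra ℚ_[2] E]
    [FiniteDimensional ℚ_[2] E] (r : GQ →* GL (Fin 2) E) (hc : Continuous r)
    (ho : St.OddRep r) (hi : St.AbsIrr r) (hS : {p : ℕ | p.Prime ∧ ¬ St.UnrAt r p}.Finite)
    (k : Type) [Field k] [CharP k 2] (χ₁ χ₂ : GQ →* kˣ) (hr : St.IsEis r χ₁ χ₂)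
    (hne : χ₁ ≠ χ₂)
    (hd : ∀ l : ℕ, l.Prime → l ≠ 2 → ¬ St.UnrAt r l → ∃ g, St.IsDec l g ∧ χ₁ g ≠ χ₂ g)
    (h1 : St.Unob r (χ₁ * χ₂⁻¹)) (h2 : St.Unob r (χ₂ * χ₁⁻¹)) : St.Q1Concl r := by
  classical
  obtain ⟨O, π, hO, ht⟩ := hr
  obtain ⟨g₀, hg₀⟩ : ∃ g, χ₁ g ≠ χ₂ g := by
    by_contra hn
    push Not at hn
    exact hne (MonoidHom.ext hn)
  let j := algebraMap k (AlgebraicClosure k)
  obtain ⟨E', i1, i2, i3, i4, i5, i6, P, ι, hP⟩ := Nf.model hc hi O (j.comp π) hO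
    ((j : k →* _).comp ((Units.coeHom k).comp χ₁)) ((j : k →* _).comp ((Units.coeHom k).comp χ₂))
    (fun g => by
      obtain ⟨t, d, a1, a2, a3, a4⟩ := ht g
      refine ⟨t, d, a1, a2, ?_, ?_⟩
      · rw [RingHom.comp_apply, a3, map_add]
        rfl
      · rw [RingHom.comp_apply, a4, map_mul]
        rfl) (g₀ := g₀) fun e => hg₀ (Units.ext (j.injective e))
  have hm : ∀ p, p ∈ hS.toFinset.erase 2 ↔ p ≠ 2 ∧ p.Prime ∧ ¬ St.UnrAt r p := fun p => by
    rw [Finset.mem_erase, hS.mem_toFinset]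
    rfl
  have hR : Red (hS.toFinset.erase 2) (cj P (bc E' r)) := red_of hP hg₀
    (fun l hl => hd l ((hm l).1 hl).2.1 ((hm l).1 hl).1 ((hm l).1 hl).2.2)
    (ub_of (fun l h => ((hm l).1 h).2.2) h1) (ub_of (fun l h => ((hm l).1 h).2.2) h2)
  have hc' := cj_cont P (bc_cont E' hc)
  refine St.q1Concl r (q1_desc r P (End.endF hC E' _ _ hc'
    ((cj_odd _ _).2 (H20.bc_odd.2 ho)) (fun p => ?_) hR (Th.thT hc' ?_ hR.int hR.lo
      (hR.reg.imp fun _ h => h.2.2))))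
  · rw [cj_unrAt, H20.bc_unrAt]
    exact hm p
  · simp only [cj_unrAt, H20.bc_unrAt]
    exact hS

end Vale.Agent.P022F.AF
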