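import Vale.Agent.P022F.A.Main
import Vale.Agent.P022F.A.FinH47

/-!
P022F: the residually reducible unobstructed case.
-/

namespace Vale.Agent.P022F.Top

open Vale.Agent.P022

/-- **the residually reducible unobstructed case** -/
theorem allA (E : Type) [NontriviallyNormedField E] [NormedAlgebra ℚ_[2] E]
    [FiniteDimensional ℚ_[2] E] (r : GQ →* GL (Fin 2) E) (hc : Continuous r)
    (ho : St.OddRep r) (hi : St.AbsIrr r) (hS : {p : ℕ | p.Prime ∧ ¬ St.UnrAt r p}.Finite)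
    (k : Type) [Field k] [CharP k 2] (χ₁ χ₂ : GQ →* kˣ) (hr : St.IsEis r χ₁ χ₂)
    (hne : χ₁ ≠ χ₂)
    (hd : ∀ l : ℕ, l.Prime → l ≠ 2 → ¬ St.UnrAt r l → ∃ g, St.IsDec l g ∧ χ₁ g ≠ χ₂ g)
    (h1 : St.Unob r (χ₁ * χ₂⁻¹)) (h2 : St.Unob r (χ₂ * χ₁⁻¹)) : St.Q1Concl r :=
  AF.finA (coreC formsA) E r hc ho hi hS k χ₁ χ₂ hr hne hd h1 h2

end Vale.Agent.P022F.Top
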