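import Vale.Agent.P022F.A.Su
import Vale.Agent.P022F.WRel
import Vale.Agent.P022F.Pt.Base

/-!
P022F: the hypotheses of the forms side.
-/

set_option linter.all false

noncomputable section

namespace Vale.Agent.P022F.Top

open Vale.Agent.P022 Vale.Agent.P022D
open Vale.Agent.P022E.Fm (Su)
open Vale.Agent.P022E.V (Co)
open Vale.Agent.P022E.Loc (Pl)

variable {O F : Type} [CommRing O] [IsLocalRing O] [Field F] [CharP F 2]

theorem okP {L : Pl O} {S : R.Dat O F} (h : OkF L S) : L.OkF S :=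
  ⟨h.ker, ⟨h.dh.opn⟩, h.det, h.hT, h.dj, h.pr, h.hP, h.h2, h.cj, h.tm, h.dg, h.ad, h.reg, h.uni,
    h.lift, h.cont, h.odd, h.ty, fun _ hl => (h.nC hl).elim,
    fun _ hl _ _ _ hc _ _ _ _ hm hw ha hb _ hx _ hI => WR.wlocI hc h hl hm hw ha hb hx hI⟩

theorem OkS.okF [Co O] {U : Su O F} (h : OkS U) : U.OkF :=
  ⟨okP h.ok, h.uni, h.hi, h.NC, h.NW0, h.NW, h.W3, h.z, h.two, h.om1, h.omm, h.omp, h.det, h.unr,
    h.wc, h.omr, h.lam, h.N0, h.res, h.ram⟩

end Vale.Agent.P022F.Top
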