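import Vale.Agent.P022E.Top.Spec
import Vale.Agent.P022D.Top.Setup

/-!
P022F: the top of the proof for reducible residual representation (statements).
-/

set_option linter.all false

open Matrix NumberField

noncomputable section

namespace Vale.Agent.P022F.Top

open Vale.Agent.P022 Vale.Agent.P022.H790.CT Vale.Agent.P022D.Dk Vale.Agent.P022D.End
open Vale.Agent.P022D.Top hiding COREn CORE MAIN TH END
open Vale.Agent.P022E.Top (TH)

/-- the cocycles for `(x, y)` which are unramified outside `2` and `S` and vanish on the complex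
conjugations are coboundaries -/
def Ub (S : Finset ℕ) {F : Type} [Field F] (x y : GQ → F) : Prop :=
  ∀ b : GQ → F, (∀ g h, b (g * h) = x g * b h + b g * y h) →
    (∃ U : Subgroup GQ, IsOpen (U : Set GQ) ∧ ∀ u ∈ U, b u = 0) →
    (∀ l : ℕ, l.Prime → l ≠ 2 → l ∉ S → ∀ s, P022D.G.Inert l s → b s = 0) →
    (∀ c, IsConj c → b c = 0) → ∃ m, ∀ g, b g = m * (x g - y g)

section ub

variable {S : Finset ℕ} {F K : Type} [Field F] [Field K] {x y : GQ → F}

theorem Ub.down (f : F →+* K) {g₀ : GQ} (h0 : x g₀ ≠ y g₀)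
    (h : Ub S (fun g => f (x g)) fun g => f (y g)) : Ub S x y := by
  intro b h1 ⟨U, hU, h2⟩ h3 h4
  obtain ⟨m, hm⟩ := h (fun g => f (b g)) (fun g g' => by rw [h1, map_add, map_mul, map_mul])
    ⟨U, hU, fun u hu => by rw [h2 u hu, map_zero]⟩
    (fun l a1 a2 a3 s a4 => by rw [h3 l a1 a2 a3 s a4, map_zero])
    (fun c hc => by rw [h4 c hc, map_zero])
  have h5 := sub_ne_zero.2 h0
  refine ⟨b g₀ / (x g₀ - y g₀), fun g => f.injective ?_⟩
  have h6 : f (x g₀) - f (y g₀) ≠ 0 := by rw [← map_sub]; exact (map_ne_zero f).2 h5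
  rw [map_mul, map_div₀, map_sub, map_sub, hm g, hm g₀, mul_div_assoc, div_self h6, mul_one]

theorem Ub.up (f : F →+* K) {g₀ : GQ} (h0 : x g₀ ≠ y g₀) (h : Ub S x y) :
    Ub S (fun g => f (x g)) fun g => f (y g) := by
  intro b h1 ⟨U, hU, h2⟩ h3 h4
  letI : Algebra F K := f.toAlgebra
  have h5 := sub_ne_zero.2 h0
  have h6 : f (x g₀) - f (y g₀) ≠ 0 := by rw [← map_sub]; exact (map_ne_zero f).2 h5
  refine ⟨b g₀ / (f (x g₀) - f (y g₀)), fun g => ?_⟩
  rw [div_mul_eq_mul_div, eq_div_iff h6, ← sub_eq_zero, ← Module.forall_dual_apply_eq_zero_iff F]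
  intro φ
  have e : ∀ (a : F) (v : K), φ (f a * v) = a * φ v := fun a v => φ.map_smul a v
  obtain ⟨m, hm⟩ := h (fun g => φ (b g))
    (fun g g' => by rw [h1, map_add, e, mul_comm (b g), e, mul_comm (y g')])
    ⟨U, hU, fun u hu => by rw [h2 u hu, map_zero]⟩
    (fun l a1 a2 a3 s a4 => by rw [h3 l a1 a2 a3 s a4, map_zero])
    (fun c hc => by rw [h4 c hc, map_zero])
  rw [map_sub, ← map_sub f, ← map_sub f, mul_comm (b g), mul_comm (b g₀), e, e, hm g, hm g₀]
  ring

theorem Ub.tw (χ : GQ → F) (h0 : ∀ g, χ g ≠ 0) (hm : ∀ g h, χ (g * h) = χ g * χ h)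
    (h : Ub S x y) : Ub S (fun g => χ g * x g) fun g => χ g * y g := by
  intro b h1 ⟨U, hU, h2⟩ h3 h4
  obtain ⟨m, hm'⟩ := h (fun g => b g / χ g) (fun g g' => by
      have := h0 g
      have := h0 g'
      rw [h1, hm]
      field_simp)
    ⟨U, hU, fun u hu => by rw [h2 u hu, zero_div]⟩
    (fun l a1 a2 a3 s a4 => by rw [h3 l a1 a2 a3 s a4, zero_div])
    (fun c hc => by rw [h4 c hc, zero_div])
  refine ⟨m, fun g => ?_⟩
  have := (div_eq_iff (h0 g)).1 (hm' g)
  rw [this]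
  ring

end ub

section

variable {E : Type} [NontriviallyNormedField E] [IsUltrametricDist E]

/-- the residual characters on the diagonal of `r` have no unramified cocycles -/
def UbR (S : Finset ℕ) (r : GQ →* GL (Fin 2) E) : Prop :=
  ∀ (k : Type) [Field k] (π : Ob E →+* k), (∀ a : Ob E, ‖(a : E)‖ < 1 → π a = 0) →
    ∀ x y : GQ → Ob E, (∀ g, (x g : E) = (r g : Matrix (Fin 2) (Fin 2) E) 0 0) →
      (∀ g, (y g : E) = (r g : Matrix (Fin 2) (Fin 2) E) 1 1) →
      Ub S (fun g => π (x g)) (fun g => π (y g)) ∧ Ub S (fun g => π (y g)) fun g => π (x g)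

/-- `r` is integral with upper triangular non split reduction, in normal form -/
structure Red (S : Finset ℕ) (r : GQ →* GL (Fin 2) E) : Prop where
  int : ∀ g i j, ‖(r g : Matrix (Fin 2) (Fin 2) E) i j‖ ≤ 1
  lo : ∀ g, ‖(r g : Matrix (Fin 2) (Fin 2) E) 1 0‖ < 1
  up : ∃ g, ‖(r g : Matrix (Fin 2) (Fin 2) E) 0 1‖ = 1
  reg : ∃ g, (r g : Matrix (Fin 2) (Fin 2) E) 0 1 = 0 ∧ (r g : Matrix (Fin 2) (Fin 2) E) 1 0 = 0 ∧
    ‖(r g : Matrix (Fin 2) (Fin 2) E) 0 0 - (r g : Matrix (Fin 2) (Fin 2) E) 1 1‖ = 1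
  dis : ∀ l ∈ S, ¬ Uni r l
  ub : UbR S r

end

/-- the theorem in fixed weight `i + 1` over fields with a primitive `n`-th root of unity; `S` is
a set of odd primes with product `R` -/
def COREn (R N₀ n : ℕ) [NeZero R] [NeZero N₀] : Prop :=
  ∀ (E : Type) [NontriviallyNormedField E] [NormedAlgebra ℚ_[2] E]
  [IsUltrametricDist E] [FiniteDimensional ℚ_[2] E] (r : GQ →* GL (Fin 2) E)
  (S : Finset ℕ) (ω : (ZMod R)ˣ →* Eˣ) (i : ℕ),
  Continuous r → OddRep r → Red S r → DetOne r → (∀ l ∈ S, l.Prime ∧ l ≠ 2) →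
  R = ∏ l ∈ S, l → (∀ p : ℕ, p.Prime → p ≠ 2 → p ∉ S → UnrAt r p) → Lev r N₀ → N₀ ≠ 1 → 1 ≤ i →
  DetW r R ω i → (∃ ζ : E, IsPrimitiveRoot ζ n) → LimR ((N₀ * R) ^ 2) r

/-- **CORE** -/
def CORE : Prop := ∀ (R N₀ : ℕ) [NeZero R] [NeZero N₀], ∃ n : ℕ, 0 < n ∧ COREn R N₀ n

/-- the theorem for integral models -/
def MAIN : Prop := ∀ (E : Type) [NontriviallyNormedField E] [NormedAlgebra ℚ_[2] E]
  [IsUltrametricDist E] [FiniteDimensional ℚ_[2] E] (r : GQ →* GL (Fin 2) E) (S : Finset ℕ),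
  Continuous r → OddRep r → (∀ p, p ∈ S ↔ p ≠ 2 ∧ p.Prime ∧ ¬ UnrAt r p) → Red S r → TH r →
  Q1Concl E r

/-- **THF**: the residual level, from Eisenstein series -/
def THF : Prop := ∀ (E : Type) [NontriviallyNormedField E] [NormedAlgebra ℚ_[2] E]
  [IsUltrametricDist E] [FiniteDimensional ℚ_[2] E] (r : GQ →* GL (Fin 2) E) (S : Finset ℕ),
  Continuous r → Red S r → TH r

section

variable {E : Type} [NontriviallyNormedField E] [IsUltrametricDist E] {χ : GQ →* Eˣ}
  {r : GQ →* GL (Fin 2) E} {S : Finset ℕ}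

theorem Red.tw (hn : ∀ g, ‖(χ g : E)‖ = 1) (h : Red S r) : Red S (tws χ r) := by
  have e : ∀ g i j, ‖(tws χ r g : Matrix (Fin 2) (Fin 2) E) i j‖ =
      ‖(r g : Matrix (Fin 2) (Fin 2) E) i j‖ := fun g i j => by
    rw [tws_ent, norm_mul, hn, one_mul]
  refine ⟨fun g i j => ?_, fun g => ?_, ?_, ?_, fun l hl hu => h.dis l hl ?_, ?_⟩
  · rw [e]
    exact h.int g i j
  · rw [e]
    exact h.lo g
  · obtain ⟨g, a⟩ := h.up
    exact ⟨g, by rwa [e]⟩
  · obtain ⟨g, a, b, c⟩ := h.reg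
    refine ⟨g, by rw [tws_ent, a, mul_zero], by rw [tws_ent, b, mul_zero], ?_⟩
    rw [tws_ent, tws_ent, ← mul_sub, norm_mul, hn, one_mul]
    exact c
  · intro P hP hl g hg
    have := hu P hP hl g hg
    rwa [tws_tr, norm_mul, hn, one_mul] at this
  · intro k _ π hπ x y hx hy
    let c : GQ → Ob E := fun g => ⟨χ g, mem_Ob.2 (hn g).le⟩
    let x' : GQ → Ob E := fun g => ⟨_, mem_Ob.2 (h.int g 0 0)⟩
    let y' : GQ → Ob E := fun g => ⟨_, mem_Ob.2 (h.int g 1 1)⟩
    have ex : (fun g => π (x g)) = fun g => π (c g) * π (x' g) := funext fun g => by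
      rw [← map_mul]
      exact congrArg π (Subtype.ext ((hx g).trans (tws_ent _ _ _)))
    have ey : (fun g => π (y g)) = fun g => π (c g) * π (y' g) := funext fun g => by
      rw [← map_mul]
      exact congrArg π (Subtype.ext ((hy g).trans (tws_ent _ _ _)))
    have h0 : ∀ g, π (c g) ≠ 0 := fun g => ((unit_Ob.2 (hn g) : IsUnit (c g)).map π).ne_zero
    have hm : ∀ g g', π (c (g * g')) = π (c g) * π (c g') := fun g g' => by
      rw [← map_mul]
      exact congrArg π (Subtype.ext (by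
        change ((χ (g * g') : Eˣ) : E) = (χ g : E) * (χ g' : E)
        rw [map_mul, Units.val_mul]))
    obtain ⟨h1, h2⟩ := h.ub k π hπ x' y' (fun _ => rfl) fun _ => rfl
    rw [ex, ey]
    exact ⟨h1.tw _ h0 hm, h2.tw _ h0 hm⟩

variable (E' : Type) [NontriviallyNormedField E'] [IsUltrametricDist E'] [NormedAlgebra E E']

/-- the map between the rings of integers -/
def obMap : Ob E →+* Ob E' :=
  ((algebraMap E E').comp (Ob E).subtype).codRestrict (Ob E') fun a => mem_Ob.2 (by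
    change ‖algebraMap E E' (a : E)‖ ≤ 1
    rw [norm_algebraMap']
    exact norm_Ob a)

theorem obMap_coe (a : Ob E) : (obMap E' a : E') = algebraMap E E' (a : E) := rfl

theorem Red.ext (h : Red S r) : Red S (bc E' r) := by
  refine ⟨fun g i j => ?_, fun g => ?_, ?_, ?_, fun l hl hu => h.dis l hl ?_, ?_⟩
  · rw [bc_ent, norm_algebraMap']
    exact h.int g i j
  · rw [bc_ent, norm_algebraMap']
    exact h.lo g
  · obtain ⟨g, a⟩ := h.up
    exact ⟨g, by rwa [bc_ent, norm_algebraMap']⟩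
  · obtain ⟨g, a, b, c⟩ := h.reg
    refine ⟨g, by rw [bc_ent, a, map_zero], by rw [bc_ent, b, map_zero], ?_⟩
    rw [bc_ent, bc_ent, ← map_sub, norm_algebraMap']
    exact c
  · intro P hP hl g hg
    have := hu P hP hl g hg
    rwa [H20.bc_trace, norm_algebraMap'] at this
  · intro k _ π hπ x y hx hy
    let x' : GQ → Ob E := fun g => ⟨_, mem_Ob.2 (h.int g 0 0)⟩
    let y' : GQ → Ob E := fun g => ⟨_, mem_Ob.2 (h.int g 1 1)⟩
    have ex : x = fun g => obMap E' (x' g) :=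
      funext fun g => Subtype.ext ((hx g).trans (bc_ent _ _ _ _))
    have ey : y = fun g => obMap E' (y' g) :=
      funext fun g => Subtype.ext ((hy g).trans (bc_ent _ _ _ _))
    rw [ex, ey]
    exact h.ub k (π.comp (obMap E')) (fun a ha => hπ _ (by
      rwa [obMap_coe, norm_algebraMap'])) x' y' (fun _ => rfl) fun _ => rfl

end

end Vale.Agent.P022F.Top
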