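import Vale.Agent.P022F.End1
import Vale.Agent.P022F.GenB
import Vale.Agent.P022F.OkF
import Vale.Agent.P022F.A.Spec

/-!
# P022F: from the forms side to the conclusion in the unobstructed case
-/

set_option linter.all false

open IsLocalRing NumberField

noncomputable section

namespace Vale.Agent.P022F

open Vale.Agent.P022 Vale.Agent.P022E.R Vale.Agent.P022E.As
open Vale.Agent.P022E.Core (Coef)
open Vale.Agent.P027M.S (Inert mx)
open Vale.Agent.P022E.Loc (Pl)

section
variable {F : Type} [Field F] {ρ : GQ →* GL (Fin 2) F}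

theorem mx_mul' (g h : GQ) : mx ρ (g * h) = mx ρ g * mx ρ h := congrArg Units.val (map_mul ρ g h)

theorem mx_one' : mx ρ 1 = 1 := congrArg Units.val (map_one ρ)

/-- the diagonal characters -/
def diagCh (lo : ∀ g, mx ρ g 1 0 = 0) (i : Fin 2) : GQ →* Fˣ :=
  MonoidHom.toHomUnits
    { toFun := fun g => mx ρ g i i
      map_one' := by rw [mx_one', Matrix.one_apply_eq]
      map_mul' := fun g h => by
        rw [mx_mul', Matrix.mul_apply, Fin.sum_univ_two]
        fin_cases i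
        · exact (congrArg _ ((congrArg _ (lo h)).trans (mul_zero _))).trans (add_zero _)
        · exact (congrArg (· + _) ((congrArg (· * _) (lo g)).trans (zero_mul _))).trans
            (zero_add _) }

theorem diagCh_val (lo : ∀ g, mx ρ g 1 0 = 0) (i : Fin 2) (g : GQ) :
    (diagCh lo i g : F) = mx ρ g i i := rfl

theorem unob_of_ub {S : Finset ℕ} {χ ψ : GQ →* Fˣ}
    (h : Top.Ub S (fun g => (χ g : F)) fun g => (ψ g : F)) : Gen.Unob S χ ψ :=
  fun b h1 h2 h3 h4 => h b h1 h2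
    (fun l a1 a2 a3 s ⟨P, a4, a5, a6⟩ => h3 l a1 a2 a3 P a4 a5 s a6) h4

end

variable {O F : Type} [CommRing O] [IsDomain O] [IsDiscreteValuationRing O] [Field F]
  {ϖ : O} {S : Dat O F} {L : Pl O}

theorem OkF.hy (hL : OkF L S)
    (u1 : Top.Ub L.W (fun g => mx S.rb g 0 0) fun g => mx S.rb g 1 1)
    (u2 : Top.Ub L.W (fun g => mx S.rb g 1 1) fun g => mx S.rb g 0 0) :
    Gen.Hy S.red L S.T (diagCh hL.lo 0) (diagCh hL.lo 1) where
  surj := S.surj
  ker := hL.ker
  tr g := by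
    rw [diagCh_val, diagCh_val, ← Matrix.trace_fin_two, ← hL.lift g]
    exact AddMonoidHom.map_trace S.red (L.r g)
  det g := by
    rw [diagCh_val, diagCh_val, S.red.map_det, RingHom.mapMatrix_apply, hL.lift g,
      Matrix.det_fin_two, hL.lo, mul_zero, sub_zero]
  ne := ⟨S.g0, fun e => S.dne (congrArg Units.val e)⟩
  hT l hl h := by
    rw [hL.hT, Finset.mem_insert, Finset.mem_insert] at h
    rcases h with h | h | h
    exacts [absurd h hl.ne_zero, Or.inl h, Or.inr (hL.memW h)]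
  hP l hl := hL.hP l (Finset.mem_union_left _ hl)
  h2 := hL.h2
  cj := hL.cj
  tm l hl := hL.tm l (Finset.mem_union_left _ hl)
  reg l hl e := (hL.reg l hl).2.2 (by rw [hL.d0, hL.d1]; exact congrArg Units.val e)
  u1 := unob_of_ub u1
  u2 := unob_of_ub u2

/-- **block L2 in the unobstructed case** -/
theorem l2F [Coef O] [CharP F 2] {I : Type} {Y0 : I → Type} {W0 : Type}
    [∀ i, AddCommGroup (Y0 i)] [∀ i, Module (Tg O) (Y0 i)] [AddCommGroup W0] [Module (Tg O) W0]
    {ses : I → I → I → Prop} {ig : I} {iJ : Finset L.C → I} (hϖ : Irreducible ϖ) (hL : OkF L S)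
    (unr : ∀ l : ℕ, l.Prime → l ∉ S.T → ∀ P : Ideal (𝓞 Qb), P.IsPrime → (l : 𝓞 Qb) ∈ P →
      ∀ s, Inert P s → L.r s = 1)
    (u1 : Top.Ub L.W (fun g => mx S.rb g 0 0) fun g => mx S.rb g 1 1)
    (u2 : Top.Ub L.W (fun g => mx S.rb g 1 1) fun g => mx S.rb g 0 0)
    (H : HD2 ϖ S L Y0 W0 ses ig iJ) : Out2 ϖ L W0 :=
  End0.out2 hϖ (fun _ hl => (hL.nC hl).elim) hL.cont unr
    (Gen.gen (hL.hy u1 u2) hϖ.maximalIdeal_eq) H

end Vale.Agent.P022F
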