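import Vale.Agent.P022F.A.Spec

/-!
P022F: the integral model of a representation with upper triangular reduction.
-/

set_option linter.all false

open Matrix NumberField IsLocalRing

noncomputable section

namespace Vale.Agent.P022F.Top

open Vale.Agent.P022 Vale.Agent.P022D
open Vale.Agent.P027M.S (mx)
open Vale.Agent.P022D.Sel (M2)
open Vale.Agent.P022D.Top (Ob mem_Ob norm_Ob unit_Ob max_Ob res_Ob dvd_Ob pow_Ob intg intg_coe
  open_ker intg_open DetOne Uni)

variable {E : Type} [NontriviallyNormedField E] [IsUltrametricDist E]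

/-- `r'` is the integral model of `r` -/
structure Su1 (r : GQ →* GL (Fin 2) E) (T : Finset ℕ)
    (S : R.Dat (Ob E) (ResidueField (Ob E))) (r' : GQ →* M2 (Ob E)) : Prop where
  red : S.red = residue (Ob E)
  hT : S.T = T
  opn : IsOpen {g : GQ | S.rb g = 1}
  lo : ∀ g, mx S.rb g 1 0 = 0
  det : ∀ g, (mx S.rb g).det = 1
  lift : ∀ g, (r' g).map S.red = mx S.rb g
  cont : ∀ k : ℕ,
    IsOpen {g : GQ | (r' g).map (Ideal.Quotient.mk (maximalIdeal (Ob E) ^ k)) = 1}
  coe : ∀ g i j, (r' g i j : E) = (r g : Matrix (Fin 2) (Fin 2) E) i j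
  nm : r' S.g1 0 1 = S.lam

variable [NormedAlgebra ℚ_[2] E] [FiniteDimensional ℚ_[2] E]

/-- **SETUP** -/
theorem setup {r : GQ →* GL (Fin 2) E} {Sf : Finset ℕ} (hc : Continuous r) (hM : Red Sf r)
    (hd : DetOne r) (T : Finset ℕ) (hT : T.Nonempty) : ∃ S r', Su1 r T S r' := by
  have hi := hM.int
  obtain ⟨g0, a01, a10, hne⟩ := hM.reg
  obtain ⟨g1, hb⟩ := hM.up
  let r0 := intg r hi
  let π := residue (Ob E)
  let rm : GQ →* M2 (ResidueField (Ob E)) := π.mapMatrix.toMonoidHom.comp r0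
  have erm : ∀ g i j, rm g i j = π (r0 g i j) := fun _ _ _ => rfl
  have ez : ∀ g i j, rm g i j = 0 ↔ ‖(r g : Matrix (Fin 2) (Fin 2) E) i j‖ < 1 :=
    fun g i j => res_Ob
  have edt : ∀ g, ((r0 g).det : E) = (r g : Matrix (Fin 2) (Fin 2) E).det := fun g => by
    rw [Matrix.det_fin_two, Matrix.det_fin_two]; rfl
  have hdet : ∀ g, (rm g).det = 1 := fun g => by
    have h1 : π ((r0 g).det - 1) = 0 := res_Ob.2 (by
      rw [AddSubgroupClass.coe_sub, edt]; exact hd g)
    rw [map_sub, map_one, sub_eq_zero, RingHom.map_det] at h1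
    exact h1
  have n01 : rm g1 0 1 ≠ 0 := fun e => ((ez _ _ _).1 e).ne hb
  have hne' : rm g0 0 0 ≠ rm g0 1 1 := fun e => by
    have h1 : π (r0 g0 0 0 - r0 g0 1 1) = 0 := by rw [map_sub, ← erm, ← erm, e, sub_self]
    exact (res_Ob.1 h1).ne hne
  have z01 := (ez g0 0 1).2 (by rw [a01, norm_zero]; exact one_pos)
  have z10 := (ez g0 1 0).2 (hM.lo g0)
  have hopen : IsOpen {g : GQ | rm.toHomUnits g = 1} := by
    have h6 := intg_open hc hi 1
    refine open_ker _ (Filter.mem_of_superset (h6.mem_nhds (by simp)) fun g hg => ?_)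
    refine Units.ext ?_
    ext i j
    have h7 := congrFun (congrFun hg i) j
    have h8 : r0 g i j - (1 : M2 (Ob E)) i j ∈ maximalIdeal (Ob E) ^ 1 := Ideal.Quotient.eq.1 (by
      refine h7.trans ?_
      by_cases e : i = j <;> simp [Matrix.one_apply, e])
    rw [pow_one, ← residue_eq_zero_iff, map_sub, sub_eq_zero] at h8
    refine h8.trans ?_
    by_cases e : i = j <;> simp [Matrix.one_apply, e]
  exact ⟨⟨π, rm.toHomUnits, T, g0, g1, r0 g1 0 1, hT.choose, residue_surjective, z01, z10, hne',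
    n01, hT.choose_spec⟩, r0, rfl, rfl, hopen, fun g => (ez g 1 0).2 (hM.lo g), hdet,
    fun _ => rfl, intg_open hc hi, fun _ _ _ => rfl, rfl⟩

section

variable {r : GQ →* GL (Fin 2) E} {T : Finset ℕ} {S : R.Dat (Ob E) (ResidueField (Ob E))}
  {r' : GQ →* M2 (Ob E)} (h : Su1 r T S r')
include h

theorem Su1.tr (g : GQ) : ((r' g).trace : E) = (r g : Matrix (Fin 2) (Fin 2) E).trace := by
  rw [Matrix.trace_fin_two, Matrix.trace_fin_two, ← h.coe, ← h.coe]
  rfl

theorem Su1.dt (g : GQ) : ((r' g).det : E) = (r g : Matrix (Fin 2) (Fin 2) E).det := by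
  rw [Matrix.det_fin_two, Matrix.det_fin_two, ← h.coe, ← h.coe, ← h.coe, ← h.coe]
  rfl

theorem Su1.one (g : GQ) (hg : r g = 1) : r' g = 1 := by
  ext i j
  rw [h.coe, hg]
  by_cases e : i = j <;> simp [Matrix.one_apply, e]

theorem Su1.res (g : GQ) (i j : Fin 2) : residue (Ob E) (r' g i j) = mx S.rb g i j := by
  rw [← h.lift, h.red]
  rfl

theorem Su1.ent (g : GQ) (i j : Fin 2) : ∃ x : Ob E,
    (x : E) = (r g : Matrix (Fin 2) (Fin 2) E) i j ∧ residue (Ob E) x = mx S.rb g i j :=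
  ⟨r' g i j, h.coe g i j, h.res g i j⟩

theorem Su1.rtr (g : GQ) : residue (Ob E) (r' g).trace = (mx S.rb g).trace := by
  rw [Matrix.trace_fin_two, Matrix.trace_fin_two, map_add, h.res, h.res]

/-- the residual trace vanishes if and only if the trace is small -/
theorem Su1.tr_iff (g : GQ) :
    (mx S.rb g).trace = 0 ↔ ‖(r g : Matrix (Fin 2) (Fin 2) E).trace‖ < 1 := by
  rw [← h.rtr, res_Ob, h.tr]

/-- a prime which is not unipotent -/
theorem Su1.dis {l : ℕ} (hl : ¬ Uni r l) : ∃ P : Ideal (𝓞 Qb), P.IsPrime ∧ (l : 𝓞 Qb) ∈ P ∧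
    ∃ g : GQ, (∀ x ∈ P, g • x ∈ P) ∧ (mx S.rb g).trace ≠ 0 := by
  by_contra hn
  push Not at hn
  exact hl fun P h1 h2 g h3 => (h.tr_iff g).1 (hn P h1 h2 g h3)

end

end Vale.Agent.P022F.Top
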