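import Vale.Agent.P022E.Top.Main
import Vale.Agent.P022F.A.Su
import Vale.Agent.P022F.A.L2F

/-!
P022F: the theorem in fixed weight from the end game and the forms side.
-/

set_option linter.all false

open Matrix NumberField IsLocalRing

noncomputable section

namespace Vale.Agent.P022F.Top

open Vale.Agent.P022 Vale.Agent.P022D.V Vale.Agent.P022E.Fm
open Vale.Agent.P022D.Top (Ob mem_Ob LimR nn nn_pos ex_PA)
open Vale.Agent.P022D.As (Tg tt dd ev0)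
open Vale.Agent.P022E.As (Out2 HD2)
open Vale.Agent.P022E.Loc (Pl)
open Vale.Agent.P022E.Top (limE ioW ioW_inj ioW_smul)
open Vale.Agent.P027M.S (mx)

/-- the forms side -/
def FORMSF : Prop := ∀ (O F : Type) [CommRing O] [IsDomain O] [IsDiscreteValuationRing O]
  [P022D.Core.Coef O] [Co O] [Field F] [Finite F] [CharP F 2] (U : Su O F)
  [∀ l : U.L.C, Fact l.1.Prime], OkS U → ∃ Cc, ASM U Cc

/-- the end game -/
def L2F : Prop := ∀ (O F : Type) [CommRing O] [IsDomain O] [IsDiscreteValuationRing O]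
  [P022D.Core.Coef O] [Field F] [Finite F] [CharP F 2] (ϖ : O) (S : P022D.R.Dat O F) (L : Pl O)
  (I : Type) (Y0 : I → Type) (W0 : Type) [∀ i, AddCommGroup (Y0 i)] [∀ i, Module (Tg O) (Y0 i)]
  [AddCommGroup W0] [Module (Tg O) W0] (ses : I → I → I → Prop) (ig : I) (iJ : Finset L.C → I),
  Irreducible ϖ → OkF L S →
  (∀ l : ℕ, l.Prime → l ∉ S.T → ∀ P : Ideal (𝓞 Qb), P.IsPrime → (l : 𝓞 Qb) ∈ P →
    ∀ s, P027M.S.Inert P s → L.r s = 1) →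
  Ub L.W (fun g => mx S.rb g 0 0) (fun g => mx S.rb g 1 1) →
  Ub L.W (fun g => mx S.rb g 1 1) (fun g => mx S.rb g 0 0) →
  HD2 ϖ S L Y0 W0 ses ig iJ → Out2 ϖ L W0

theorem oddN {O F : Type} [CommRing O] [IsLocalRing O] [Co O] [Field F] {U : Su O F}
    (hU : OkS U) : Odd U.N ∧ 3 ≤ U.N := by
  have e : U.N = U.NW := by rw [Su.N, hU.NC, hU.ok.hC, Finset.prod_empty, mul_one]
  rw [e]
  constructor
  · rw [← Nat.not_even_iff_odd, even_iff_two_dvd, hU.NW 2 Nat.prime_two]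
    exact fun h => (hU.ok.pr 2 (Finset.mem_union_left _ h)).2 rfl
  · obtain ⟨l, hl⟩ : ∃ l, l ∈ U.L.W := by
      rcases hU.W3 with ⟨l, h⟩ | ⟨l, h, -⟩
      · exact ⟨l, h⟩
      · exact (hU.ok.nC h).elim
    have h := hU.ok.pr l (Finset.mem_union_left _ hl)
    have h1 := h.1.two_le
    have h2 := Nat.le_of_dvd (Nat.pos_of_ne_zero hU.NW0) ((hU.NW l h.1).2 hl)
    have h3 := h.2
    omega

/-- **CORE** -/
theorem core (hL : L2F) (hF : FORMSF) (hC : ∀ (O : Type) [CommRing O] [Co O], CLAD O) :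
    CORE := by
  intro R N₀ _ _
  refine ⟨nn R N₀, nn_pos (NeZero.ne R) (NeZero.ne N₀), ?_⟩
  intro E _ _ _ _ r S ω i hc ho hM hd hS hR hu hv h1 hi hW hz
  obtain ⟨ζ, hζ⟩ := hz
  obtain ⟨co⟩ := P022D.V.emb E (Ob E) fun x => mem_Ob
  obtain ⟨U, hU, hϖ, hN, u1, u2, htr, hdt⟩ := exSu hc ho hM h1 hd hS hR hu hv hi hW hζ
  haveI : ∀ l : U.L.C, Fact l.1.Prime := fun l => ⟨(hU.ok.pr l.1 (Finset.mem_union_right _ l.2)).1⟩
  obtain ⟨Cc, P, hP⟩ := hF (Ob E) _ U hU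
  have hO := hL (Ob E) _ U.ϖ U.S U.L _ _ _ _ _ _ hϖ hU.ok
    (fun l hl hT Q hQ hlQ s hs => hU.unr l hl hT s ⟨Q, hQ, hlQ, hs⟩) u1 u2 hP
  have eM : P.M = U.N := by rw [P.lv.eq, Fin.prod_univ_zero, mul_one]
  refine limE (hC _) htr hdt (M := P.M) (i := U.i) (z := U.z) (eM ▸ (oddN hU).1) (eM ▸ (oddN hU).2)
    (pow_dvd_pow_of_dvd (eM ▸ hN) 2) (eM ▸ hU.z) (ioW P) (ioW_inj P)
    (fun w => (show P.X.Wh from w).1.2.1) (fun w => (mem_of_sub (show P.X.Wh from w).2.1).1.2)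
    (fun p u φ hp h2 hu hφ w => ?_) (fun p u φ hp h2 hu hφ w => ?_) hϖ.not_isUnit hO
  · obtain ⟨h, rfl⟩ := ex_PA hp h2 hu
    rw [ioW_smul, show P.ev (tt φ) = P.X.t φ from MvPolynomial.eval₂Hom_X' _ _ _]
    exact P.ok.op.frT ⟨p, h⟩ φ hφ _
  · obtain ⟨h, rfl⟩ := ex_PA hp h2 hu
    rw [ioW_smul, show P.ev (dd φ) = P.X.d φ from MvPolynomial.eval₂Hom_X' _ _ _]
    exact P.ok.op.frS ⟨p, h⟩ φ hφ _

theorem l2C : L2F := fun _ _ _ _ _ _ _ _ _ _ _ _ _ _ _ _ _ _ _ _ _ _ h1 h2 h3 h4 h5 h6 =>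
  l2F h1 h2 h3 h4 h5 h6

theorem coreC (hF : FORMSF) : CORE :=
  core l2C hF fun O _ _ =>
    P022D.V.clad O (P022D.V.cla O) (P022D.V.lift O) (P022D.V.All.div O)

end Vale.Agent.P022F.Top
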