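import Vale.Agent.P022F.A.Spec
import Vale.Agent.P022F.Eis
import Vale.Agent.P022D.Th.Tei
import Vale.Agent.P022D.Th.Main1
import Vale.Agent.P022D.V.Emb
import Vale.Agent.P022E.GW.Fix

/-!
P022F: the residual level of a residually reducible representation, from Eisenstein series.
-/

set_option linter.all false

open Matrix NumberField

noncomputable section

namespace Vale.Agent.P022F.Top

open Vale.Agent.P022 Vale.Agent.P022.H790.CT Vale.Agent.P022D.Dk Vale.Agent.P022D.End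
  Vale.Agent.P022.H853 Vale.Agent.P022.H567.Tw
open Vale.Agent.P022D.Top hiding COREn CORE MAIN TH END
open Vale.Agent.P022D.Th (lt_add lt_sub lt_mul two_lt lt_of_sq)

section

variable {E : Type} [NontriviallyNormedField E] [NormedAlgebra ℚ_[2] E] [IsUltrametricDist E]

theorem sub_le {x y : E} (hx : ‖x‖ ≤ 1) (hy : ‖y‖ ≤ 1) : ‖x - y‖ ≤ 1 := by
  rw [sub_eq_add_neg]
  exact (IsUltrametricDist.norm_add_le_max _ _).trans (max_le hx (by rwa [norm_neg]))

theorem near_one {a : E} (ha : ‖a‖ ≤ 1) (h : ‖a ^ 2 - 1‖ < 1) : ‖a - 1‖ < 1 := by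
  refine lt_of_sq ?_
  rw [show (a - 1) ^ 2 = (a ^ 2 - 1) + 2 * (1 - a) by ring]
  exact lt_add h (lt_mul two_lt (sub_le norm_one.le ha))

theorem cube_lt {l : ℕ} (hl : Odd l) : ‖(l : E) ^ 3 - 1‖ < 1 := by
  obtain ⟨k, rfl⟩ := hl
  have : ((2 * k + 1 : ℕ) : E) ^ 3 - 1 = 2 * ((4 * k ^ 3 + 6 * k ^ 2 + 3 * k : ℕ) : E) := by
    push_cast
    ring
  rw [this]
  exact lt_mul two_lt (IsUltrametricDist.norm_natCast_le_one E _)

/-- the residual level of a triangular representation of residual determinant one -/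
theorem lev_tri [FiniteDimensional ℚ_[2] E] (s : GQ →* GL (Fin 2) E)
    (hi : ∀ g i j, ‖(s g : Matrix (Fin 2) (Fin 2) E) i j‖ ≤ 1)
    (hl : ∀ g, ‖(s g : Matrix (Fin 2) (Fin 2) E) 1 0‖ < 1) (hD : DetOne s)
    (hV : {g | ‖(s g : Matrix (Fin 2) (Fin 2) E) 0 0 - (s g : Matrix (Fin 2) (Fin 2) E) 1 1‖ < 1} ∈
      nhds (1 : GQ))
    (h0 : ∃ g, ¬ ‖(s g : Matrix (Fin 2) (Fin 2) E) 0 0 -
      (s g : Matrix (Fin 2) (Fin 2) E) 1 1‖ < 1) :
    ∃ (N₀ : ℕ) (_ : NeZero N₀), N₀ ≠ 1 ∧ Lev s N₀ := by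
  classical
  obtain ⟨n, t, hn, t1, t2, t3, t4, t5, t6⟩ := P022D.Th.tei0 E
  obtain ⟨a, ha⟩ : ∃ a : GQ → E, ∀ g, a g = (s g : Matrix (Fin 2) (Fin 2) E) 0 0 :=
    ⟨_, fun _ => rfl⟩
  obtain ⟨e, he⟩ : ∃ e : GQ → E, ∀ g, e g = (s g : Matrix (Fin 2) (Fin 2) E) 1 1 :=
    ⟨_, fun _ => rfl⟩
  have a1 : ∀ g, ‖a g‖ ≤ 1 := fun g => by rw [ha]; exact hi g 0 0
  have e1 : ∀ g, ‖e g‖ ≤ 1 := fun g => by rw [he]; exact hi g 1 1
  have ae : ∀ g, ‖a g * e g - 1‖ < 1 := fun g => by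
    have h1 := hD g
    rw [Matrix.det_fin_two, ← ha, ← he] at h1
    have h2 := lt_add h1 (lt_mul (hl g) (hi g 0 1))
    rwa [show ∀ x y z : E, x - y * z - 1 + z * y = x - 1 from fun _ _ _ => by ring] at h2
  have key : ∀ g, ‖a g - e g‖ < 1 → t (a g) = 1 := fun g h => by
    rw [← t6]
    refine t4 _ _ (a1 g) norm_one.le (near_one (a1 g) ?_)
    rw [show a g ^ 2 - 1 = (a g - e g) * a g + (a g * e g - 1) by ring]
    exact lt_add (lt_mul h (a1 g)) (ae g)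
  have yek : ∀ g, ‖a g - 1‖ < 1 → ‖a g - e g‖ < 1 := fun g h => by
    rw [show a g - e g = (a g - 1) + ((a g - 1) * e g - (a g * e g - 1)) by ring]
    exact lt_add h (lt_sub (lt_mul h (e1 g)) (ae g))
  let χ₀ : GQ →* E :=
    { toFun := fun g => t (a g)
      map_one' := by simp only [ha, map_one, Units.val_one, Matrix.one_apply_eq, t6]
      map_mul' := fun g h => by
        have m1 : ‖a g * a h‖ ≤ 1 := by
          rw [norm_mul]
          exact mul_le_one₀ (a1 g) (norm_nonneg _) (a1 h)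
        rw [← t5 _ _ (a1 g) (a1 h)]
        refine t4 _ _ (a1 _) m1 ?_
        rw [ha (g * h), map_mul, Units.val_mul, Matrix.mul_apply, Fin.sum_univ_two, ← ha, ← ha,
          add_sub_cancel_left, mul_comm]
        exact lt_mul (hl h) (hi g 0 1) }
  let χ : GQ →* Eˣ := χ₀.toHomUnits
  have hχ : ∀ g, (χ g : E) = t (a g) := fun _ => rfl
  have hV' : (χ.ker : Set GQ) ∈ nhds (1 : GQ) := by
    filter_upwards [hV] with g hg
    exact Units.ext (key g (by rwa [ha, he]))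
  have hχc : Continuous χ := by
    refine continuous_of_continuousAt_one χ (continuousAt_const.congr (f := fun _ => 1) ?_)
    filter_upwards [hV'] with g hg
    exact (show χ g = 1 from hg).symm
  obtain ⟨n₀, hn₀, hfin⟩ := P022E.GW.Fx2.fin_ram χ.ker (Subgroup.isOpen_of_mem_nhds _ hV')
  obtain ⟨m, iNZ, ψf, ψ2, hm, -, hdec, -, hres, hram⟩ := decomp C.GCHF χ hχc n₀.primeFactors
    (fun p hp hpS P hP hpP g hg => hfin P hP (fun h => hpS (Nat.mem_primeFactors.2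
      ⟨hp, by exact_mod_cast H20.dvd_of_mem hp hP hpP (d := (n₀ : ℤ)) (by exact_mod_cast h),
        hn₀⟩)) g hg)
  have fn : ∀ g, ‖((ψf (cyc m g) : Eˣ) : E)‖ = 1 := fun g => norm_char ψf _
  have af : ∀ g, ‖((ψf (cyc m g) : Eˣ) : E) - a g‖ < 1 := fun g => by
    have h1 := t1 _ (a1 g)
    rw [← hχ, hdec, Units.val_mul] at h1
    have h2 := lt_sub h1 (lt_mul (hres g) (fn g).le)
    rwa [show ∀ x y z : E, x * y - z - (y - 1) * x = x - z from fun _ _ _ => by ring] at h2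
  have ram : ∀ l : ℕ, l.Prime → l ∣ m * m → ∃ P : Ideal (𝓞 Qb), P.IsPrime ∧ (l : 𝓞 Qb) ∈ P ∧
      ∃ g : GQ, (∀ x : 𝓞 Qb, g • x - x ∈ P) ∧ ¬ ‖a g - e g‖ < 1 := fun l hp h => by
    obtain ⟨P, hP, hlP, g, hg, hne⟩ := hram l hp (((Nat.Prime.dvd_mul hp).1 h).elim id id)
    exact ⟨P, hP, hlP, g, hg, fun h => hne (Units.ext (key g h))⟩
  haveI : NeZero (m * m) := ⟨mul_ne_zero iNZ.out iNZ.out⟩
  refine ⟨m * m, inferInstance, fun h1 => ?_, hm.mul hm, ⟨4, fun φ hφ X hX => ?_⟩,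
    fun l hp h hu => ?_, fun l hp hu h => ?_⟩
  · obtain ⟨g, hg⟩ := h0
    have hm1 : m = 1 := Nat.eq_one_of_mul_eq_one_right h1
    subst hm1
    have h2 := af g
    rw [Subsingleton.elim (cyc 1 g) 1, map_one, Units.val_one, norm_sub_rev] at h2
    exact hg (by rw [← ha, ← he]; exact yek g h2)
  · obtain ⟨ι⟩ := P022D.V.Emb.iso E
    let j : E →+* ℂ := ι.toRingHom.comp (algebraMap E (AlgebraicClosure E))
    have hw := Eis.eis_word j j.injective m m 3 (by norm_num) (MulChar.ofUnitHom ψf)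
      (MulChar.ofUnitHom ψf⁻¹) (by
        rw [show (-1 : ZMod m) = ((-1 : (ZMod m)ˣ) : ZMod m) by simp, MulChar.ofUnitHom_coe,
          MulChar.ofUnitHom_coe, MonoidHom.inv_apply, Units.mul_inv]
        norm_num) X (hX 3 (by norm_num))
    have hc : ∀ ℓ : PA (m * m), (ℓ.1 : ZMod m) = (cyc m (φ ℓ) : ZMod m) := fun ℓ =>
      (cyc_frob ℓ.2.1 (fun h => ℓ.2.2 ((h.mul_right m).mul_left 2)) (hφ ℓ)).symm
    have ho : ∀ ℓ : PA (m * m), Odd ℓ.1 := fun ℓ =>
      ℓ.2.1.odd_of_ne_two fun h => ℓ.2.2 (by rw [h]; exact dvd_mul_right 2 _)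
    have l1 : ∀ ℓ : PA (m * m), ‖(ℓ.1 : E) ^ 3‖ ≤ 1 := fun ℓ => by
      rw [norm_pow]
      exact pow_le_one₀ (norm_nonneg _) (IsUltrametricDist.norm_natCast_le_one E _)
    have fi : ∀ g, ‖(((ψf (cyc m g))⁻¹ : Eˣ) : E)‖ = 1 := fun g => by
      rw [Units.val_inv_eq_inv_val, norm_inv, fn, inv_one]
    simp only [hc, MulChar.ofUnitHom_coe, MonoidHom.inv_apply, Units.mul_inv, mul_one] at hw
    rw [← sub_zero (FreeAlgebra.lift ℤ (sys s φ) X), ← hw]
    refine lift_near (sys_le hi φ) ?_ ?_ X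
    · rintro (ℓ | ℓ)
      · refine (IsUltrametricDist.norm_add_le_max _ _).trans (max_le (fn _).le ?_)
        rw [norm_mul, fi, one_mul]
        exact l1 ℓ
      · exact l1 ℓ
    · rintro (ℓ | ℓ)
      · change ‖(s (φ ℓ) : Matrix (Fin 2) (Fin 2) E).trace - (((ψf (cyc m (φ ℓ)) : Eˣ) : E) +
          (((ψf (cyc m (φ ℓ)))⁻¹ : Eˣ) : E) * (ℓ.1 : E) ^ 3)‖ < 1
        have h1 := af (φ ℓ)
        have h2 := lt_mul (lt_sub (lt_add (lt_mul h1 (e1 (φ ℓ))) (ae (φ ℓ))) (cube_lt (ho ℓ)))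
          (fi (φ ℓ)).le
        have h3 := lt_sub h2 h1
        have h4 := (ψf (cyc m (φ ℓ))).mul_inv
        rw [Matrix.trace_fin_two, ← ha, ← he]
        refine lt_of_eq_of_lt (congrArg _ ?_) h3
        linear_combination (-e (φ ℓ)) * h4
      · change ‖(s (φ ℓ) : Matrix (Fin 2) (Fin 2) E).det - (ℓ.1 : E) ^ 3‖ < 1
        have := lt_sub (hD (φ ℓ)) (cube_lt (E := E) (ho ℓ))
        rwa [sub_sub_sub_cancel_right] at this
  · obtain ⟨P, hP, hlP, g, hg, hne⟩ := ram l hp h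
    refine hne (yek g ?_)
    have := hu g ⟨P, hP, hlP, hg⟩ 0 0
    rwa [Matrix.sub_apply, Matrix.one_apply_eq, ← ha] at this
  · obtain ⟨P, hP, hlP, g, hg, hne⟩ := ram l hp ((dvd_pow_self l two_ne_zero).trans h)
    have h1 := hu P hP hlP g fun x hx => by
      have := P.add_mem (hg x) hx
      rwa [sub_add_cancel] at this
    rw [Matrix.trace_fin_two, ← ha, ← he] at h1
    refine hne ?_
    rw [show a g - e g = (a g + e g) - 2 * e g by ring]
    exact lt_sub h1 (lt_mul two_lt (e1 g))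

end

/-- **THF** -/
theorem thf : THF := by
  intro E _ _ _ _ r S hc h μ hμ hD
  have H := h.tw hμ
  refine lev_tri _ H.int H.lo hD ?_ ?_
  · have ho : IsOpen {g : GQ | ‖(r g : Matrix (Fin 2) (Fin 2) E) 0 0 -
        (r g : Matrix (Fin 2) (Fin 2) E) 1 1‖ < 1} :=
      isOpen_lt (((Units.continuous_val.comp hc).matrix_elem 0 0).sub
        ((Units.continuous_val.comp hc).matrix_elem 1 1)).norm continuous_const
    filter_upwards [ho.mem_nhds (by simp)] with g hg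
    rw [tws_ent, tws_ent, ← mul_sub, norm_mul, hμ, one_mul]
    exact hg
  · obtain ⟨g, -, -, hg⟩ := H.reg
    exact ⟨g, hg.not_lt⟩

end Vale.Agent.P022F.Top
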