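import Vale.Agent.P022F.A.EndMain
import Vale.Agent.P022F.A.Thf
import Vale.Agent.P022F.Top.Nf
import Vale.Agent.P022F.St
import Vale.Agent.P022.H443.Tri

/-!
P022F: the statement for unobstructed reducible residual representation from the theorem in
fixed weight.
-/

set_option linter.all false

open Matrix NumberField IsLocalRing

noncomputable section

namespace Vale.Agent.P022F.Top

open Vale.Agent.P022 Vale.Agent.P022D.Dk Vale.Agent.P022D.End
open Vale.Agent.P022D.Top (Ob mem_Ob norm_Ob res_Ob Uni)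

theorem ub_of_st {E : Type} [NontriviallyNormedField E] {r : GQ →* GL (Fin 2) E} {k : Type}
    [Field k] {χ ψ : GQ →* kˣ} {S : Finset ℕ}
    (hS : ∀ p, p ∈ S → ¬ St.UnrAt r p) (h : St.Unob r (χ * ψ⁻¹)) :
    Ub S (fun g => (χ g : k)) fun g => (ψ g : k) := by
  intro b h1 ⟨U, hU, h2⟩ h3 h4
  have e : ∀ g, (((χ * ψ⁻¹) g : kˣ) : k) = (χ g : k) / ψ g := fun g => by
    rw [MonoidHom.mul_apply, MonoidHom.inv_apply, Units.val_mul, Units.val_inv_eq_inv_val,
      div_eq_mul_inv]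
  have c : ∀ g g', b (g * g') / (ψ (g * g') : k) =
      b g / (ψ g : k) + (((χ * ψ⁻¹) g : kˣ) : k) * (b g' / (ψ g' : k)) := fun g g' => by
    have := (ψ g).ne_zero
    have := (ψ g').ne_zero
    rw [h1, e, map_mul, Units.val_mul]
    field_simp
    ring
  obtain ⟨c0, hc0⟩ := H443.exists_isConj
  obtain ⟨v, hv⟩ := h (fun g => b g / (ψ g : k))
    ((IsLocallyConstant.iff_exists_open _).2 fun g =>
      ⟨(fun x => g⁻¹ * x) ⁻¹' (U : Set GQ), hU.preimage (continuous_const_mul _), by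
        simp [U.one_mem], fun x hx => by
          have := c g (g⁻¹ * x)
          rw [mul_inv_cancel_left, h2 _ hx, zero_div, mul_zero, add_zero] at this
          exact this⟩) c
    (fun p hp h2' hu P hP hpP g hg => by
      show b g / _ = 0
      rw [h3 p hp h2' (fun a => hS p a hu) g ⟨P, hP, hpP, hg⟩, zero_div])
    ⟨c0, hc0, by
      show b c0 / _ = 0
      rw [h4 c0 hc0, zero_div]⟩
  refine ⟨v, fun g => ?_⟩
  have h0 := (ψ g).ne_zero
  have := (div_eq_iff h0).1 (hv g)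
  rw [this, e]
  field_simp

/-- **the unobstructed reducible case** -/
theorem finA (hC : CORE) (E : Type) [NontriviallyNormedField E] [NormedAlgebra ℚ_[2] E]
    [FiniteDimensional ℚ_[2] E] (r : GQ →* GL (Fin 2) E) (hc : Continuous r)
    (ho : St.OddRep r) (hi : St.AbsIrr r) (hS : {p : ℕ | p.Prime ∧ ¬ St.UnrAt r p}.Finite)
    (k : Type) [Field k] [CharP k 2] (χ₁ χ₂ : GQ →* kˣ) (he : St.IsEis r χ₁ χ₂) (hne : χ₁ ≠ χ₂)
    (hd : ∀ p : ℕ, p.Prime → p ≠ 2 → ¬ St.UnrAt r p → ∃ g, St.IsDec p g ∧ χ₁ g ≠ χ₂ g)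
    (u1 : St.Unob r (χ₁ * χ₂⁻¹)) (u2 : St.Unob r (χ₂ * χ₁⁻¹)) : St.Q1Concl r := by
  classical
  obtain ⟨O, π, hO, ht⟩ := he
  let Ω := AlgebraicClosure k
  let j : k →+* Ω := algebraMap k Ω
  haveI : CharP Ω 2 := charP_of_injective_algebraMap j.injective 2
  let a : GQ →* Ω := j.toMonoidHom.comp ((Units.coeHom k).comp χ₁)
  let d : GQ →* Ω := j.toMonoidHom.comp ((Units.coeHom k).comp χ₂)
  have had : ∀ {g}, χ₁ g ≠ χ₂ g → a g ≠ d g := fun h e => h (Units.ext (j.injective e))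
  obtain ⟨g₀, h0⟩ := DFunLike.ne_iff.1 hne
  obtain ⟨E', i1, i2, i3, i4, i5, i6, P, ι, hN⟩ := Nf.model hc hi O (j.comp π) hO a d (fun g => by
    obtain ⟨t, d', b1, b2, b3, b4⟩ := ht g
    exact ⟨t, d', b1, b2, by rw [RingHom.comp_apply, b3, map_add]; rfl,
      by rw [RingHom.comp_apply, b4, map_mul]; rfl⟩) (had h0)
  let S : Finset ℕ := hS.toFinset.erase 2
  have hmem : ∀ p, p ∈ S ↔ p ≠ 2 ∧ p.Prime ∧ ¬ St.UnrAt r p := fun p => by
    rw [Finset.mem_erase, hS.mem_toFinset]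
    rfl
  let s := cj P (bc E' r)
  let x : GQ → Ob E' := fun g => ⟨_, mem_Ob.2 (hN.int g 0 0)⟩
  let y : GQ → Ob E' := fun g => ⟨_, mem_Ob.2 (hN.int g 1 1)⟩
  have hx : ∀ g, ι (x g) = a g := fun g => hN.c0 g _ rfl
  have hy : ∀ g, ι (y g) = d g := fun g => hN.c1 g _ rfl
  have hR : Red S s := by
    refine ⟨hN.int, hN.lo, ?_, ⟨g₀, hN.dg.1, hN.dg.2, ?_⟩, fun l hl hu => ?_, ?_⟩
    · obtain ⟨g, e⟩ := hN.up
      exact ⟨g, by rw [e, norm_one]⟩
    · refine le_antisymm (norm_Ob (x g₀ - y g₀)) (not_lt.1 fun h => had h0 ?_)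
      have := (Nf.zero_iff ι (x g₀ - y g₀)).2 h
      rwa [map_sub, hx, hy, sub_eq_zero] at this
    · obtain ⟨l2, lp, lu⟩ := (hmem l).1 hl
      obtain ⟨g, ⟨Q, q1, q2, q3⟩, hg⟩ := hd l lp l2 lu
      have h1 := hu Q q1 q2 g q3
      rw [Matrix.trace_fin_two] at h1
      have := (Nf.zero_iff ι (x g + y g)).2 h1
      rw [map_add, hx, hy] at this
      exact had hg (by
        have h2 : (2 : Ω) = 0 := CharP.cast_eq_zero Ω 2
        linear_combination this - d g * h2)
    · intro K _ ρ hρ x' y' hx' hy'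
      obtain rfl : x' = x := funext fun g => Subtype.ext (hx' g)
      obtain rfl : y' = y := funext fun g => Subtype.ext (hy' g)
      let f : ResidueField (Ob E') →+* Ω := Ideal.Quotient.lift _ ι fun z hz =>
        (Nf.zero_iff ι z).2 (P022D.Top.max_Ob.1 hz)
      let f' : ResidueField (Ob E') →+* K := Ideal.Quotient.lift _ ρ fun z hz =>
        hρ z (P022D.Top.max_Ob.1 hz)
      have n0 : residue _ (x g₀) ≠ residue _ (y g₀) := fun e => had h0 (by
        rw [← hx, ← hy]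
        exact congrArg f e)
      have n1 : (χ₁ g₀ : k) ≠ χ₂ g₀ := fun e => h0 (Units.ext e)
      have v1 := (ub_of_st (S := S) (fun p hp => ((hmem p).1 hp).2.2) u1).up j n1
      have v2 := (ub_of_st (S := S) (fun p hp => ((hmem p).1 hp).2.2) u2).up j n1.symm
      have ex : (fun g => j (χ₁ g : k)) = fun g => f (residue _ (x g)) := funext fun g => (hx g).symm
      have ey : (fun g => j (χ₂ g : k)) = fun g => f (residue _ (y g)) := funext fun g => (hy g).symm
      rw [ex, ey] at v1 v2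
      exact ⟨(Ub.down f n0 v1).up f' n0, (Ub.down f n0.symm v2).up f' n0.symm⟩
  have hcs : Continuous s := cj_cont P (bc_cont E' hc)
  refine St.q1Concl r (q1_desc r P (End.endF hC E' s S hcs
    ((cj_odd _ _).2 (H20.bc_odd.2 ho)) (fun p => ?_) hR (thf E' s S hcs hR)))
  simp only [s, cj_unrAt, H20.bc_unrAt]
  exact hmem p

end Vale.Agent.P022F.Top
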