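import Vale.Agent.P022F.A.Spec
import Vale.Agent.P022F.Gen

/-!
P022F: the residual characters.
-/

set_option linter.all false

open Matrix NumberField IsLocalRing

noncomputable section

namespace Vale.Agent.P022F.Top

open Vale.Agent.P022 Vale.Agent.P022D.Top

theorem Ub.gen {S : Finset ℕ} {F : Type} [Field F] {χ ψ : GQ →* Fˣ}
    (h : Ub S (fun g => (χ g : F)) fun g => (ψ g : F)) : Gen.Unob S χ ψ :=
  fun b h1 h2 h3 h4 => h b h1 h2
    (fun l a1 a2 a3 s ⟨P, hP, hl, hs⟩ => h3 l a1 a2 a3 P hP hl s hs) h4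

variable {E : Type} [NontriviallyNormedField E] [IsUltrametricDist E]
  [NormedAlgebra ℚ_[2] E] [FiniteDimensional ℚ_[2] E] {r : GQ →* GL (Fin 2) E} {S : Finset ℕ}

/-- the residual characters of `r` -/
structure Chs (S : Finset ℕ) (r : GQ →* GL (Fin 2) E) (χ ψ : GQ →* (ResidueField (Ob E))ˣ) :
    Prop where
  c0 : ∀ g (x : Ob E), (x : E) = (r g : Matrix (Fin 2) (Fin 2) E) 0 0 → residue _ x = χ g
  c1 : ∀ g (x : Ob E), (x : E) = (r g : Matrix (Fin 2) (Fin 2) E) 1 1 → residue _ x = ψ g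
  tr : ∀ g (x : Ob E), (x : E) = (r g : Matrix (Fin 2) (Fin 2) E).trace →
    residue _ x = (χ g : ResidueField (Ob E)) + ψ g
  det : ∀ g (x : Ob E), (x : E) = (r g : Matrix (Fin 2) (Fin 2) E).det →
    residue _ x = (χ g : ResidueField (Ob E)) * ψ g
  ne : ∃ g, χ g ≠ ψ g
  eq : ∀ g, χ g = ψ g ↔ ‖(r g : Matrix (Fin 2) (Fin 2) E).trace‖ < 1
  u1 : Gen.Unob S χ ψ
  u2 : Gen.Unob S ψ χ

theorem Red.chs (h : Red S r) : ∃ χ ψ, Chs S r χ ψ := by
  let e : GQ → Fin 2 → Fin 2 → Ob E := fun g i j => ⟨_, mem_Ob.2 (h.int g i j)⟩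
  have z : ∀ g, residue _ (e g 1 0) = 0 := fun g => res_Ob.2 (h.lo g)
  have m : ∀ g k i j, e (g * k) i j = e g i 0 * e k 0 j + e g i 1 * e k 1 j := fun g k i j =>
    Subtype.ext (by
      change (r (g * k) : Matrix (Fin 2) (Fin 2) E) i j = _
      rw [map_mul, Units.val_mul, Matrix.mul_apply, Fin.sum_univ_two]
      rfl)
  have o : ∀ i, e 1 i i = 1 := fun i => Subtype.ext (by
    change (r 1 : Matrix (Fin 2) (Fin 2) E) i i = 1
    rw [map_one, Units.val_one, Matrix.one_apply_eq])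
  let a : GQ →* ResidueField (Ob E) :=
    { toFun := fun g => residue _ (e g 0 0)
      map_one' := by rw [o, map_one]
      map_mul' := fun g k => by rw [m, map_add, map_mul, map_mul, z, mul_zero, add_zero] }
  let d : GQ →* ResidueField (Ob E) :=
    { toFun := fun g => residue _ (e g 1 1)
      map_one' := by rw [o, map_one]
      map_mul' := fun g k => by rw [m, map_add, map_mul, map_mul, z, zero_mul, zero_add] }
  have ht : ∀ g (x : Ob E), (x : E) = (r g : Matrix (Fin 2) (Fin 2) E).trace →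
      residue _ x = a g + d g := fun g x hx => by
    rw [show x = e g 0 0 + e g 1 1 from Subtype.ext (hx.trans (Matrix.trace_fin_two _)), map_add]
    rfl
  have two : (2 : ResidueField (Ob E)) = 0 := by
    have : residue (Ob E) 2 = 0 := res_Ob.2 norm_two_lt
    rwa [map_ofNat] at this
  obtain ⟨h1, h2⟩ := h.ub _ (residue _) (fun x hx => res_Ob.2 hx) (fun g => e g 0 0)
    (fun g => e g 1 1) (fun _ => rfl) fun _ => rfl
  refine ⟨a.toHomUnits, d.toHomUnits, fun g x hx => ?_, fun g x hx => ?_, ht, fun g x hx => ?_, ?_,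
    fun g => ?_, Ub.gen h1, Ub.gen h2⟩
  · rw [show x = e g 0 0 from Subtype.ext hx]
    rfl
  · rw [show x = e g 1 1 from Subtype.ext hx]
    rfl
  · rw [show x = e g 0 0 * e g 1 1 - e g 0 1 * e g 1 0 from
      Subtype.ext (hx.trans (Matrix.det_fin_two _)), map_sub, map_mul, map_mul, z, mul_zero,
      sub_zero]
    rfl
  · obtain ⟨g, -, -, c⟩ := h.reg
    refine ⟨g, fun q => ?_⟩
    have q' : residue _ (e g 0 0 - e g 1 1) = 0 := by
      rw [map_sub, sub_eq_zero]
      exact congrArg Units.val q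
    exact (res_Ob.1 q').ne c
  · have q := ht g (e g 0 0 + e g 1 1) (Matrix.trace_fin_two _).symm
    rw [Matrix.trace_fin_two]
    refine Iff.trans ?_ (res_Ob (x := e g 0 0 + e g 1 1))
    rw [q, Units.ext_iff]
    change a g = d g ↔ _
    exact ⟨fun q => by linear_combination q + d g * two, fun q => by
      linear_combination q - d g * two⟩

end Vale.Agent.P022F.Top
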