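import Vale.Agent.P022F.A.Core
import Vale.Agent.P022F.A.Br
import Vale.Agent.P022F.A.EndMain
import Vale.Agent.P022F.Pt.FmForms

/-!
P022F: the theorem for integral models.
-/

namespace Vale.Agent.P022F.Top

theorem formsA : FORMSF := fun O F _ _ _ _ _ _ _ _ U _ h => P022E.Fm.formsCF O F U h.okF

theorem mainA : MAIN := End.endF (coreC formsA)

end Vale.Agent.P022F.Top
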